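import Mathlib

/-!
# P291: Coulomb branches of quiver gauge theories and cohomology of Nakajima quiver varieties

Definitions for the final statement: arbitrary finite quiver `Q` (loops and multiple arrows
allowed), arbitrary gauge and framing dimensions, arbitrary flavour torus, regular `ν`.
-/

namespace Vale.Agent.P291.Reg

/-- A finite quiver with vertex set `I`, arrow set `E` (an arrow `e` goes from `s e` to `t e`),
gauge dimensions `v i = dim V_i` and framing dimensions `w i = dim W_i`. So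
`G = ∏ GL(V_i)` and `N = ⨁_e Hom(V_{s e}, V_{t e}) ⊕ ⨁_i Hom(V_i, W_i)`. -/
structure QData (I E : Type) where
  /-- source -/
  s : E → I
  /-- target -/
  t : E → I
  /-- gauge dimensions -/
  v : I → ℕ
  /-- framing dimensions -/
  w : I → ℕ

namespace QData

variable {I E : Type} (Q : QData I E)

/-- Index set of the coordinates `a_{i,r}` of the maximal torus `T` of `G` (Chern roots). -/
abbrev Col : Type := Σ i : I, Fin (Q.v i)

/-- Arrows and framing lines `(i, l)`, the summands of `N`. -/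
abbrev Fl : Type := E ⊕ (Σ i : I, Fin (Q.w i))

variable (L : Type) [CommRing L]

/-- `H^*_{T × F}(pt)`, the polynomial ring in the Chern roots over `L = H^*_F(pt)`. -/
def SS : Type := MvPolynomial Q.Col L

noncomputable instance : CommRing (Q.SS L) := AddMonoidAlgebra.commRing

instance [IsDomain L] : IsDomain (Q.SS L) := (inferInstance : IsDomain (MvPolynomial Q.Col L))

variable {L}

/-- The Chern root `a_c`. -/
noncomputable def av (c : Q.Col) : Q.SS L := (MvPolynomial.X c : MvPolynomial Q.Col L)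

/-- The elements of `H^*_F(pt)`. -/
noncomputable def cv (x : L) : Q.SS L := (MvPolynomial.C x : MvPolynomial Q.Col L)

/-- The Weyl group of `G`. -/
abbrev Wy : Type := ∀ i : I, Equiv.Perm (Fin (Q.v i))

/-- The Weyl group permutes the Chern roots. -/
def act (σ : Q.Wy) : Equiv.Perm Q.Col := Equiv.sigmaCongrRight σ

/-- The action of the Weyl group on `H^*_{T × F}(pt)`. -/
noncomputable def perm (σ : Q.Wy) : Q.SS L →+* Q.SS L :=
  (MvPolynomial.rename (Q.act σ) : MvPolynomial Q.Col L →ₐ[L] MvPolynomial Q.Col L).toRingHom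

variable (L)

/-- The Weyl group invariants in `H^*_{T × F}(pt)`. -/
noncomputable def inv : Subring (Q.SS L) :=
  ⨅ σ : Q.Wy, RingHom.eqLocus (Q.perm σ) (RingHom.id (Q.SS L))

/-- `R = H^*_{G × F}(pt)`. -/
def RR : Type := Q.inv L

noncomputable instance : CommRing (Q.RR L) := Subring.toCommRing (Q.inv L)

/-- The inclusion of `R` into `H^*_{T × F}(pt)`. -/
noncomputable def toSS : Q.RR L →+* Q.SS L := (Q.inv L).subtype

variable {L}

section main

variable [Fintype I] [DecidableEq I] [Fintype E]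

/-- The cocharacter `n · 1_U`. -/
def ind (n : ℤ) (U : Finset Q.Col) : Q.Col → ℤ := fun c => if c ∈ U then n else 0

/-- For flavour weights `m : Fl → L = H^*_F(pt)`, the factor `∏ ξ ^ max (0, -⟨ξ, lam⟩)` of the
abelianized monopole operator of the cocharacter `lam` of `T`, over the weights `ξ` of `N`:
`a_{t e, p} - a_{s e, r} + m_e` for arrows and `m_{i,l} - a_{i,r}` for framing lines. -/
noncomputable def rc (m : Q.Fl → L) (lam : Q.Col → ℤ) : Q.SS L :=
  (∏ e : E, ∏ p : Fin (Q.v (Q.t e)), ∏ r : Fin (Q.v (Q.s e)),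
      (Q.av ⟨Q.t e, p⟩ - Q.av ⟨Q.s e, r⟩ + Q.cv (m (Sum.inl e))) ^
        (lam ⟨Q.s e, r⟩ - lam ⟨Q.t e, p⟩).toNat) *
    ∏ i : I, ∏ r : Fin (Q.v i), ∏ l : Fin (Q.w i),
      (Q.cv (m (Sum.inr ⟨i, l⟩)) - Q.av ⟨i, r⟩) ^ (lam ⟨i, r⟩).toNat

/-- `∏ (a_c - a_d)` over `c` in `U` and `d` outside `U` at the same vertex. -/
noncomputable def eu (U : Finset Q.Col) : Q.SS L :=
  ∏ c ∈ U, ∏ d ∈ Finset.univ.filter (fun d => d.1 = c.1 ∧ d ∉ U), (Q.av c - Q.av d)

/-! ### The quiver variety -/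

/-- The ideal of relations of the hypertoric variety `X_T` of `(T, N)`:
`H^*_F(X_T) = H^*_{T × F}(pt) ⧸ IT`. It is generated, for all nonempty subsets `U` of the Chern
roots, by the product `r^{1_U} r^{-1_U}` of all weights of `N` that pair nontrivially
with `1_U`. -/
noncomputable def IT (m : Q.Fl → L) : Ideal (Q.SS L) :=
  Ideal.span {f | ∃ U : Finset Q.Col, U.Nonempty ∧ f = Q.rc m (Q.ind 1 U) * Q.rc m (Q.ind (-1) U)}

variable (L) in
/-- The product `D` of all roots of `G`. -/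
noncomputable def disc : Q.SS L :=
  ∏ c : Q.Col, ∏ d ∈ Finset.univ.filter (fun d : Q.Col => d.1 = c.1 ∧ d ≠ c), (Q.av c - Q.av d)

/-- The flavour weights for the bigger torus `F × (ℂ^*)^E`, where the arrow `e` gets the additional
parameter `T_e`. -/
noncomputable def hat (m : Q.Fl → L) : Q.Fl → MvPolynomial E L
  | Sum.inl e => MvPolynomial.C (m (Sum.inl e)) + MvPolynomial.X e
  | Sum.inr l => MvPolynomial.C (m (Sum.inr l))

variable (L) in
/-- The specialization `T = 0` on polynomials in the Chern roots. -/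
noncomputable def spec : Q.SS (MvPolynomial E L) →+* Q.SS L :=
  (MvPolynomial.map MvPolynomial.constantCoeff :
    MvPolynomial Q.Col (MvPolynomial E L) →+* MvPolynomial Q.Col L)

/-- The kernel of the Kirwan map `φ_H : R → H^*_F(X)`: all `f` in `R` of the form
`g|_{T = 0}` with `D g ∈ IT` for the bigger torus `F × (ℂ^*)^E`. -/
noncomputable def JH (m : Q.Fl → L) : Ideal (Q.RR L) :=
  (((Q.IT (Q.hat m)).colon {Q.disc (MvPolynomial E L)}).map (Q.spec L)).comap (Q.toSS L)

/-- `H^*_F(X)`, presented as the quotient of `R` by the kernel of the Kirwan map. -/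
def HX (m : Q.Fl → L) : Type := Q.RR L ⧸ Q.JH m

noncomputable instance (m : Q.Fl → L) : CommRing (Q.HX m) := Ideal.Quotient.commRing (Q.JH m)

/-- The Kirwan map `φ_H : R → H^*_F(X)`. -/
noncomputable def phiH (m : Q.Fl → L) : Q.RR L →+* Q.HX m := Ideal.Quotient.mk (Q.JH m)

/-! ### The Coulomb branch -/

variable (L) [IsDomain L]

/-- The field of fractions of `H^*_{T × F}(pt)`. -/
def KK : Type := FractionRing (Q.SS L)

noncomputable instance : Field (Q.KK L) := FractionRing.field (Q.SS L)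

/-- The inclusion of `H^*_{T × F}(pt)` into its field of fractions. -/
noncomputable def toKK : Q.SS L →+* Q.KK L := (algebraMap (Q.SS L) (FractionRing (Q.SS L)) :)

/-- The group algebra of the cocharacter lattice `ℤ^Col` of `T` over that field: the localized
Coulomb branch algebra of the torus. -/
def Lau : Type := AddMonoidAlgebra (Q.KK L) (Q.Col → ℤ)

noncomputable instance : CommRing (Q.Lau L) := AddMonoidAlgebra.commRing

variable {L}

/-- The monomial `x u^lam`. -/
noncomputable def single (lam : Q.Col → ℤ) (x : Q.KK L) : Q.Lau L :=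
  (AddMonoidAlgebra.single lam x : AddMonoidAlgebra (Q.KK L) (Q.Col → ℤ))

/-- The coefficient of `u^lam`. -/
noncomputable def coeff (x : Q.Lau L) (lam : Q.Col → ℤ) : Q.KK L :=
  AddMonoidAlgebra.coeff (x : AddMonoidAlgebra (Q.KK L) (Q.Col → ℤ)) lam

variable (L)

/-- The inclusion of `R` as multiples of `u^0`. -/
noncomputable def toLau : Q.RR L →+* Q.Lau L :=
  ((AddMonoidAlgebra.singleZeroRingHom :
    Q.KK L →+* AddMonoidAlgebra (Q.KK L) (Q.Col → ℤ)).comp ((Q.toKK L).comp (Q.toSS L)) :)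

variable {L}

/-- The dressed minuscule monopole operator of the cocharacter `n · 1_U` (used for `n = ± 1`) with
dressing `f`, abelianized: `∑_{σ ∈ W} σ (f · r^{n 1_U} / ∏_{c ∈ U, d ∉ U} (a_c - a_d) · u^{n 1_U})`. -/
noncomputable def mon (m : Q.Fl → L) (n : ℤ) (U : Finset Q.Col) (f : Q.SS L) : Q.Lau L :=
  ∑ σ : Q.Wy, Q.single (Q.ind n (U.map (Q.act σ).toEmbedding))
    (Q.toKK L (Q.perm σ f * Q.rc m (Q.ind n (U.map (Q.act σ).toEmbedding))) /
      Q.toKK L (Q.eu (U.map (Q.act σ).toEmbedding)))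

/-- The subring of the localized algebra generated by `R` and the dressed minuscule monopole
operators of all cocharacters `± 1_U`. -/
noncomputable def alg (m : Q.Fl → L) : Subring (Q.Lau L) :=
  Subring.closure (Set.range (Q.toLau L) ∪
    {x | ∃ (U : Finset Q.Col) (f : Q.SS L), x = Q.mon m 1 U f ∨ x = Q.mon m (-1) U f})

/-- The Coulomb branch algebra `A_F`. -/
def AF (m : Q.Fl → L) : Type := Q.alg m

noncomputable instance (m : Q.Fl → L) : CommRing (Q.AF m) := Subring.toCommRing (Q.alg m)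

/-- The inclusion of `A_F` into the localized algebra. -/
noncomputable def val (m : Q.Fl → L) : Q.AF m →+* Q.Lau L := (Q.alg m).subtype

/-- The inclusion of `R` into `A_F`. -/
noncomputable def toAF (m : Q.Fl → L) : Q.RR L →+* Q.AF m :=
  (Q.toLau L).codRestrict (Q.alg m) (fun r => Subring.subset_closure (Or.inl ⟨r, rfl⟩))

/-- The `ν`-weight of a cocharacter: `ν` paired with its topological charge. -/
def nuWt (ν : I → ℤ) (lam : Q.Col → ℤ) : ℤ := ∑ c : Q.Col, ν c.1 * lam c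

/-- The ideal of `A_F` generated by all homogeneous elements of nonzero `ν`-weight. -/
noncomputable def J (m : Q.Fl → L) (ν : I → ℤ) : Ideal (Q.AF m) :=
  Ideal.span {x | ∃ k : ℤ, k ≠ 0 ∧
    ∀ lam : Q.Col → ℤ, Q.coeff (Q.val m x) lam ≠ 0 → Q.nuWt ν lam = k}

/-- The coordinate ring `ℂ[Y^ν] = A_F ⧸ J` of the scheme-theoretic fixed locus. -/
def CY (m : Q.Fl → L) (ν : I → ℤ) : Type := Q.AF m ⧸ Q.J m ν

noncomputable instance (m : Q.Fl → L) (ν : I → ℤ) : CommRing (Q.CY m ν) :=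
  Ideal.Quotient.commRing (Q.J m ν)

/-- The coefficient map `φ_C` from `R` to the coordinate ring of the fixed locus. -/
noncomputable def phiC (m : Q.Fl → L) (ν : I → ℤ) : Q.RR L →+* Q.CY m ν :=
  (Ideal.Quotient.mk (Q.J m ν)).comp (Q.toAF m)

/-- `H^*_F(X)` and `ℂ[Y^ν]` are isomorphic, compatibly with `φ_H` and `φ_C`. -/
def Hikita (m : Q.Fl → L) (ν : I → ℤ) : Prop :=
  ∃ e : Q.HX m ≃+* Q.CY m ν, ∀ r, e (Q.phiH m r) = Q.phiC m ν r

end main

/-- The flavour weights in `H^*_F(pt) = ℂ[f_1, …, f_n]` of the torus `F` of rank `n` acting on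
the summand `a` of `N` through the character `χ a`. -/
noncomputable def wt {n : ℕ} (χ : Q.Fl → Fin n → ℤ) (a : Q.Fl) : MvPolynomial (Fin n) ℂ :=
  ∑ i, MvPolynomial.C (χ a i : ℂ) * MvPolynomial.X i

/-! ### Regular characters -/

variable {Q} {k : Type} [Field k]

/-- A point `(x, j)` of `N` and `(y, i)` of `N^*`, over a field `k`. -/
structure Pt (Q : QData I E) (k : Type) where
  /-- the arrows `V_{s e} → V_{t e}` -/
  x : ∀ e : E, Matrix (Fin (Q.v (Q.t e))) (Fin (Q.v (Q.s e))) k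
  /-- the opposite arrows `V_{t e} → V_{s e}` -/
  y : ∀ e : E, Matrix (Fin (Q.v (Q.s e))) (Fin (Q.v (Q.t e))) k
  /-- the maps `V_i → W_i` -/
  j : ∀ i : I, Matrix (Fin (Q.w i)) (Fin (Q.v i)) k
  /-- the maps `W_i → V_i` -/
  i : ∀ i : I, Matrix (Fin (Q.v i)) (Fin (Q.w i)) k

/-- The value `⟨μ(s, p), ξ⟩ = ⟨p, ξ s⟩` of the moment map at `ξ` in the Lie algebra of `G`. -/
def Pt.mu [Fintype I] [Fintype E] (z : Q.Pt k)
    (ξ : ∀ i : I, Matrix (Fin (Q.v i)) (Fin (Q.v i)) k) : k :=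
  ∑ e : E, (z.y e * (ξ (Q.t e) * z.x e - z.x e * ξ (Q.s e))).trace
    - ∑ i : I, (z.i i * (z.j i * ξ i)).trace

/-- A family of subspaces `U_i ⊆ V_i` preserved by all arrows. -/
def Pt.IsSub (z : Q.Pt k) (U : ∀ i : I, Submodule k (Fin (Q.v i) → k)) : Prop :=
  ∀ e : E, (∀ u ∈ U (Q.s e), (z.x e).mulVec u ∈ U (Q.t e)) ∧
    (∀ u ∈ U (Q.t e), (z.y e).mulVec u ∈ U (Q.s e))

/-- `∑ ν_i dim U_i` -/
noncomputable def pair [Fintype I] (ν : I → ℤ)
    (U : ∀ i : I, Submodule k (Fin (Q.v i) → k)) : ℤ :=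
  ∑ i : I, ν i * (Module.finrank k (U i) : ℤ)

/-- `ν`-semistability. -/
def Pt.SS [Fintype I] (z : Q.Pt k) (ν : I → ℤ) : Prop :=
  ∀ U : ∀ i : I, Submodule k (Fin (Q.v i) → k), z.IsSub U →
    ((∀ i, ∀ u ∈ U i, (z.j i).mulVec u = 0) → 0 ≤ pair ν U) ∧
    ((∀ i a, (z.i i).mulVec a ∈ U i) → ∑ i, ν i * (Q.v i : ℤ) ≤ pair ν U)

/-- `ν`-stability. -/
def Pt.St [Fintype I] (z : Q.Pt k) (ν : I → ℤ) : Prop :=
  ∀ U : ∀ i : I, Submodule k (Fin (Q.v i) → k), z.IsSub U →
    ((∀ i, ∀ u ∈ U i, (z.j i).mulVec u = 0) → (∃ i, U i ≠ ⊥) → 0 < pair ν U) ∧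
    ((∀ i a, (z.i i).mulVec a ∈ U i) → (∃ i, U i ≠ ⊤) → ∑ i, ν i * (Q.v i : ℤ) < pair ν U)

/-- `ν` is regular: on `μ^{-1}(0)` semistable points are stable (and then `G` acts freely on
them). -/
def Regular (Q : QData I E) [Fintype I] [Fintype E] (ν : I → ℤ) : Prop :=
  ∀ z : Q.Pt ℂ, (∀ ξ, z.mu ξ = 0) → z.SS ν → z.St ν

end QData

end Vale.Agent.P291.Reg
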