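import Vale.Agent.P291.Reg.Prod
import Vale.Agent.P291.TBlk

/-!
# Comparison of the generators of the algebra with those of Core
-/

set_option linter.unusedSectionVars false
set_option linter.unusedSimpArgs false

open MvPolynomial

namespace Vale.Agent.P291.Reg

variable {I E : Type} [Fintype I] [DecidableEq I] [Fintype E] (Q : QData I E)
  {L : Type} [CommRing L] [IsDomain L] (m : Q.Fl → L)

theorem act_mem (σ : Q.Wy) : Q.act σ ∈ (core Q m).W := fun _ => rfl

theorem exists_act {τ : Equiv.Perm Q.Col} (h : τ ∈ (core Q m).W) : ∃ σ : Q.Wy, Q.act σ = τ := by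
  have key : ∀ τ : Equiv.Perm Q.Col, (∀ c : Q.Col, (τ c).1 = c.1) → ∀ (i : I) (x : Fin (Q.v i)),
      ∃ y : Fin (Q.v i), τ ⟨i, x⟩ = ⟨i, y⟩ := by
    intro τ h i x
    have h1 : (τ ⟨i, x⟩).1 = i := h ⟨i, x⟩
    generalize τ ⟨i, x⟩ = c at h1
    obtain ⟨j, y⟩ := c
    obtain rfl : j = i := h1
    exact ⟨y, rfl⟩
  choose f hf using key τ h
  choose g hg using key τ⁻¹ ((core Q m).W.inv_mem h)
  have inj : ∀ (i : I) (x y : Fin (Q.v i)), (⟨i, x⟩ : Q.Col) = ⟨i, y⟩ → x = y := by
    intro i x y e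
    exact eq_of_heq (Sigma.mk.inj e).2
  refine ⟨fun i => ⟨f i, g i, ?_, ?_⟩, ?_⟩
  · intro x
    apply inj
    rw [← hg, ← hf]
    simp
  · intro x
    apply inj
    rw [← hf, ← hg]
    simp
  · ext1 c
    exact (hf c.1 c.2).symm

theorem mem_inv (f : Q.SS L) : f ∈ Q.inv L ↔ (f : MvPolynomial Q.Col L) ∈ (core Q m).R := by
  unfold QData.inv
  rw [Subring.mem_iInf]
  constructor
  · intro h τ hτ
    obtain ⟨σ, rfl⟩ := exists_act Q m hτ
    exact h σ
  · intro h σ
    exact h (Q.act σ) (act_mem Q m σ)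

/-- the equivariant dressing which is `f` at `V0` -/
noncomputable def FV (V0 : Finset (Option Q.Col)) (f : MvPolynomial Q.Col L) :
    Finset (Option Q.Col) → MvPolynomial Q.Col L :=
  fun V => ∑ σ : Q.Wy, if vact (Q.act σ) V0 = V then rename (Q.act σ) f else 0

theorem act_mul (σ τ : Q.Wy) : Q.act (σ * τ) = Q.act σ * Q.act τ := rfl

theorem vact_mul (σ τ : Equiv.Perm Q.Col) (V : Finset (Option Q.Col)) :
    vact (σ * τ) V = vact σ (vact τ V) := by
  ext o
  cases o
  · simp [mem_vact_none]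
  · simp [mem_vact_some]

theorem rename_mul (σ τ : Equiv.Perm Q.Col) (f : MvPolynomial Q.Col L) :
    rename (σ * τ) f = rename σ (rename τ f) := by
  rw [rename_rename]
  rfl

theorem FV_mem (V0 : Finset (Option Q.Col)) (f : MvPolynomial Q.Col L) :
    FV Q V0 f ∈ (core Q m).Eqv := by
  intro τ hτ V
  obtain ⟨ρ, rfl⟩ := exists_act Q m hτ
  unfold FV
  rw [map_sum]
  refine (Fintype.sum_bijective (fun σ => ρ * σ) (Group.mulLeft_bijective ρ) _ _ ?_).symm
  intro σ
  rw [act_mul, vact_mul, rename_mul]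
  by_cases h : vact (Q.act σ) V0 = V
  · rw [if_pos h, if_pos (by rw [h])]
  · rw [if_neg h, if_neg (fun e => h (TB.vact_injective _ e)), map_zero]

theorem single_sum {ι : Type} (s : Finset ι) (lam : Q.Col → ℤ) (g : ι → KK Q.Col L) :
    (AddMonoidAlgebra.single lam (∑ i ∈ s, g i) : AA Q.Col L) =
      ∑ i ∈ s, AddMonoidAlgebra.single lam (g i) :=
  map_sum (AddMonoidAlgebra.singleAddHom lam) g s

theorem M_FV (V0 : Finset (Option Q.Col)) (f : MvPolynomial Q.Col L) :
    (core Q m).M (FV Q V0 f) = ∑ σ : Q.Wy, AddMonoidAlgebra.single (lamV (vact (Q.act σ) V0))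
      (toK (rename (Q.act σ) f) * (core Q m).e (lamV (vact (Q.act σ) V0))) := by
  unfold QD.M FV
  have h : ∀ V : Finset (Option Q.Col), (AddMonoidAlgebra.single (lamV V)
      (toK (∑ σ : Q.Wy, if vact (Q.act σ) V0 = V then rename (Q.act σ) f else 0) *
        (core Q m).e (lamV V)) : AA Q.Col L) =
      ∑ σ : Q.Wy, if vact (Q.act σ) V0 = V then AddMonoidAlgebra.single (lamV V)
        (toK (rename (Q.act σ) f) * (core Q m).e (lamV V)) else 0 := by
    intro V
    unfold toK
    rw [map_sum, Finset.sum_mul, single_sum]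
    refine Finset.sum_congr rfl fun σ _ => ?_
    split_ifs
    · rfl
    · rw [map_zero, zero_mul, AddMonoidAlgebra.single_zero]
  rw [Finset.sum_congr rfl (fun V _ => h V), Finset.sum_comm]
  refine Finset.sum_congr rfl fun σ _ => ?_
  rw [Finset.sum_ite_eq]
  rw [if_pos (Finset.mem_univ _)]

/-- the subset of a cocharacter `1_S` -/
def Vp (S : Finset Q.Col) : Finset (Option Q.Col) := S.map Function.Embedding.some

/-- the subset of a cocharacter `-1_S` -/
def Vm (S : Finset Q.Col) : Finset (Option Q.Col) := (Vp Q S)ᶜ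

theorem mem_Vp (S : Finset Q.Col) (c : Q.Col) : some c ∈ Vp Q S ↔ c ∈ S := by
  unfold Vp
  simp

theorem none_Vp (S : Finset Q.Col) : none ∉ Vp Q S := by
  unfold Vp
  simp

theorem lamV_Vp (S : Finset Q.Col) : lamV (Vp Q S) = Q.ind 1 S := by
  funext c
  unfold lamV QData.ind
  rw [if_neg (none_Vp Q S), sub_zero]
  by_cases h : c ∈ S
  · rw [if_pos h, if_pos ((mem_Vp Q S c).mpr h)]
  · rw [if_neg h, if_neg (fun e => h ((mem_Vp Q S c).mp e))]

theorem lamV_Vm (S : Finset Q.Col) : lamV (Vm Q S) = Q.ind (-1) S := by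
  funext c
  unfold lamV QData.ind
  rw [if_pos (show none ∈ Vm Q S from Finset.mem_compl.mpr (none_Vp Q S))]
  by_cases h : c ∈ S
  · rw [if_pos h, if_neg (show some c ∉ Vm Q S from
      fun e => Finset.mem_compl.mp e ((mem_Vp Q S c).mpr h))]
    rfl
  · rw [if_neg h, if_pos (show some c ∈ Vm Q S from
      Finset.mem_compl.mpr (fun e => h ((mem_Vp Q S c).mp e)))]
    rfl

theorem vact_Vp (σ : Q.Wy) (S : Finset Q.Col) :
    vact (Q.act σ) (Vp Q S) = Vp Q (S.map (Q.act σ).toEmbedding) := by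
  ext o
  cases o with
  | none => simp [mem_vact_none, none_Vp]
  | some c =>
    rw [mem_vact_some, mem_Vp, mem_Vp, Finset.mem_map_equiv]
    rfl

theorem vact_Vm (σ : Q.Wy) (S : Finset Q.Col) :
    vact (Q.act σ) (Vm Q S) = Vm Q (S.map (Q.act σ).toEmbedding) := by
  unfold Vm
  rw [← vact_Vp]
  ext o
  cases o with
  | none => simp [mem_vact_none, none_Vp]
  | some c => simp only [mem_vact_some, Finset.mem_compl]

theorem eq_Vp_or_Vm (V : Finset (Option Q.Col)) : ∃ S : Finset Q.Col, V = Vp Q S ∨ V = Vm Q S := by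
  by_cases h : none ∈ V
  · refine ⟨Finset.univ.filter (fun c => some c ∉ V), Or.inr ?_⟩
    ext o
    cases o with
    | none => simp [h, Vm, none_Vp]
    | some c => simp [Vm, mem_Vp]
  · refine ⟨Finset.univ.filter (fun c => some c ∈ V), Or.inl ?_⟩
    ext o
    cases o with
    | none => simp [h, none_Vp]
    | some c => simp [mem_Vp]

theorem npr_map (σ : Q.Wy) (S : Finset Q.Col) :
    npr Q (S.map (Q.act σ).toEmbedding) = npr Q S := by
  unfold npr
  rw [Finset.sum_map]
  refine Finset.sum_congr rfl fun c _ => ?_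
  refine (Finset.card_equiv (Q.act σ) ?_).symm
  intro d
  simp only [Finset.mem_filter, Finset.mem_univ, true_and, Finset.mem_map_equiv]
  constructor
  · rintro ⟨h1, h2⟩
    exact ⟨h1, by simpa using h2⟩
  · rintro ⟨h1, h2⟩
    exact ⟨h1, by simpa using h2⟩

/-- the dressed monopole operators in terms of Core -/
noncomputable def monM (n : ℤ) (S : Finset Q.Col) (f : MvPolynomial Q.Col L) : AA Q.Col L :=
  ∑ σ : Q.Wy, AddMonoidAlgebra.single (Q.ind n (S.map (Q.act σ).toEmbedding))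
    (toK (rename (Q.act σ) f * rcM Q m (Q.ind n (S.map (Q.act σ).toEmbedding))) /
      toK (euM Q (S.map (Q.act σ).toEmbedding)))

theorem mon_rfl (n : ℤ) (S : Finset Q.Col) (f : MvPolynomial Q.Col L) :
    Q.mon m n S f = monM Q m n S f := rfl

theorem monM_one (S : Finset Q.Col) (f : MvPolynomial Q.Col L) :
    monM Q m 1 S f = (core Q m).M (FV Q (Vp Q S) f) := by
  rw [M_FV]
  unfold monM
  refine Finset.sum_congr rfl fun σ _ => ?_
  rw [vact_Vp, lamV_Vp]
  unfold QD.e
  rw [rcM_eq, den_ind_one]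
  unfold toK
  rw [map_mul, mul_div_assoc]

theorem neg_one_single (n : ℕ) :
    ((-1) ^ n : AA Q.Col L) = AddMonoidAlgebra.single 0 ((-1) ^ n) := by
  have h := map_pow (AddMonoidAlgebra.singleZeroRingHom :
    KK Q.Col L →+* AddMonoidAlgebra (KK Q.Col L) (Q.Col → ℤ)) (-1) n
  rw [map_neg, map_one] at h
  exact h.symm

theorem monM_neg (S : Finset Q.Col) (f : MvPolynomial Q.Col L) :
    monM Q m (-1) S f = (-1) ^ npr Q S * (core Q m).M (FV Q (Vm Q S) f) := by
  rw [M_FV, neg_one_single]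
  unfold monM
  rw [Finset.mul_sum]
  refine Finset.sum_congr rfl fun σ _ => ?_
  rw [vact_Vm, lamV_Vm]
  unfold QD.e
  rw [rcM_eq, den_ind_neg, npr_map, AddMonoidAlgebra.single_mul_single, zero_add]
  congr 1
  unfold toK
  rw [map_mul, map_mul, map_pow, map_neg, map_one]
  have hs : ((-1 : KK Q.Col L) ^ npr Q S) ≠ 0 := pow_ne_zero _ (neg_ne_zero.mpr one_ne_zero)
  generalize ((-1 : KK Q.Col L) ^ npr Q S) = s at hs
  generalize (algebraMap (SS Q.Col L) (KK Q.Col L)) (rename (Q.act σ) f) = a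
  generalize (algebraMap (SS Q.Col L) (KK Q.Col L)) ((core Q m).rho _) = b
  generalize (algebraMap (SS Q.Col L) (KK Q.Col L)) (euM Q _) = c
  rw [show s * (a * (b / (s * c))) = a * (s * b / (s * c)) by ring, mul_div_mul_left _ _ hs,
    mul_div_assoc]

theorem neg_one_mul_self (n : ℕ) (x : AA Q.Col L) : (-1) ^ n * ((-1) ^ n * x) = x := by
  rcases neg_one_pow_eq_or (AA Q.Col L) n with h | h
  · rw [h, one_mul, one_mul]
  · rw [h, neg_one_mul, neg_one_mul, neg_neg]

theorem M_FV_Vm (S : Finset Q.Col) (f : MvPolynomial Q.Col L) :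
    (core Q m).M (FV Q (Vm Q S) f) = (-1) ^ npr Q S * monM Q m (-1) S f := by
  rw [monM_neg, neg_one_mul_self]

/-- an equivariant dressing is a combination of the elementary ones -/
theorem eqv_eq [Algebra ℚ L] {F : Finset (Option Q.Col) → MvPolynomial Q.Col L}
    (hF : F ∈ (core Q m).Eqv) : F = ∑ V : Finset (Option Q.Col),
      FV Q V (C (algebraMap ℚ L (Fintype.card Q.Wy : ℚ)⁻¹) * F V) := by
  funext V
  rw [Finset.sum_apply]
  unfold FV
  rw [Finset.sum_comm]
  have h : ∀ σ : Q.Wy, (∑ V' : Finset (Option Q.Col), if vact (Q.act σ) V' = V then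
      rename (Q.act σ) (C (algebraMap ℚ L (Fintype.card Q.Wy : ℚ)⁻¹) * F V') else 0) =
      C (algebraMap ℚ L (Fintype.card Q.Wy : ℚ)⁻¹) * F V := by
    intro σ
    obtain ⟨V0, hV0⟩ := (vact_bijective (Q.act σ)).2 V
    rw [Finset.sum_eq_single V0]
    · rw [if_pos hV0, map_mul, rename_C]
      have := hF (Q.act σ) (act_mem Q m σ) V0
      rw [← hV0, this]
    · intro V1 _ h1
      rw [if_neg]
      intro e
      exact h1 (TB.vact_injective _ (e.trans hV0.symm))
    · intro h0
      exact absurd (Finset.mem_univ _) h0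
  rw [Finset.sum_congr rfl (fun σ _ => h σ), Finset.sum_const, Finset.card_univ, nsmul_eq_mul]
  have h1 : ((Fintype.card Q.Wy : ℕ) : MvPolynomial Q.Col L) =
      C (algebraMap ℚ L (Fintype.card Q.Wy : ℚ)) := by
    rw [map_natCast, map_natCast]
  rw [h1, ← mul_assoc, ← map_mul, ← map_mul, mul_inv_cancel₀, map_one, map_one, one_mul]
  exact Nat.cast_ne_zero.mpr Fintype.card_ne_zero

theorem M_sum {ι : Type} (s : Finset ι) (F : ι → Finset (Option Q.Col) → MvPolynomial Q.Col L) :
    (core Q m).M (∑ i ∈ s, F i) = ∑ i ∈ s, (core Q m).M (F i) := by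
  unfold QD.M
  rw [Finset.sum_comm]
  refine Finset.sum_congr rfl fun V _ => ?_
  rw [Finset.sum_apply]
  unfold toK
  rw [map_sum, Finset.sum_mul, single_sum]

theorem M_eq [Algebra ℚ L] {F : Finset (Option Q.Col) → MvPolynomial Q.Col L}
    (hF : F ∈ (core Q m).Eqv) : (core Q m).M F = ∑ V : Finset (Option Q.Col),
      (core Q m).M (FV Q V (C (algebraMap ℚ L (Fintype.card Q.Wy : ℚ)⁻¹) * F V)) := by
  rw [← M_sum, ← eqv_eq Q m hF]

theorem monM_one_mem (S : Finset Q.Col) (f : MvPolynomial Q.Col L) :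
    monM Q m 1 S f ∈ (core Q m).A := by
  rw [monM_one]
  exact TB.M_mem _ (FV_mem Q m _ _)

theorem monM_neg_mem (S : Finset Q.Col) (f : MvPolynomial Q.Col L) :
    monM Q m (-1) S f ∈ (core Q m).A := by
  rw [monM_neg]
  exact mul_mem (pow_mem (neg_mem (one_mem _)) _) (TB.M_mem _ (FV_mem Q m _ _))

/-- `A_F` is the algebra of Core -/
theorem mem_alg [Algebra ℚ L] (x : AA Q.Col L) : x ∈ Q.alg m ↔ x ∈ (core Q m).A := by
  constructor
  · intro hx
    refine Subring.closure_induction (p := fun (x : Q.Lau L) _ => (x : AA Q.Col L) ∈ (core Q m).A)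
      ?_ ?_ ?_ ?_ ?_ ?_ hx
    · rintro x (⟨r, rfl⟩ | ⟨S, f, hx⟩)
      · exact cst_mem (core Q m) ((mem_inv Q m _).mp r.2)
      · rcases hx with rfl | rfl
        · exact monM_one_mem Q m S f
        · exact monM_neg_mem Q m S f
    · exact (core Q m).A.zero_mem
    · exact (core Q m).A.one_mem
    · exact fun x y _ _ hx hy => (core Q m).A.add_mem hx hy
    · exact fun x _ hx => (core Q m).A.neg_mem hx
    · exact fun x y _ _ hx hy => (core Q m).A.mul_mem hx hy
  · intro hx
    refine Algebra.adjoin_induction (R := L) (A := AA Q.Col L)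
      (p := fun (x : AA Q.Col L) _ => (x : Q.Lau L) ∈ Q.alg m) ?_ ?_ ?_ ?_ hx
    · rintro x ⟨F, hF, rfl⟩
      rw [M_eq Q m hF]
      refine Subring.sum_mem (Q.alg m) fun V _ => ?_
      obtain ⟨S, hS | hS⟩ := eq_Vp_or_Vm Q V
      · subst hS
        rw [← monM_one]
        exact Subring.subset_closure (Or.inr ⟨S, _, Or.inl rfl⟩)
      · subst hS
        rw [M_FV_Vm]
        exact (Q.alg m).mul_mem ((Q.alg m).pow_mem ((Q.alg m).neg_mem (Q.alg m).one_mem) _)
          (Subring.subset_closure (Or.inr ⟨S, _, Or.inr rfl⟩))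
    · intro r
      rw [algebraMap_AA]
      exact Subring.subset_closure (Or.inl ⟨⟨(C r : MvPolynomial Q.Col L),
        (mem_inv Q m _).mpr fun σ _ => rename_C _ _⟩, rfl⟩)
    · exact fun x y _ _ hx hy => (Q.alg m).add_mem hx hy
    · exact fun x y _ _ hx hy => (Q.alg m).mul_mem hx hy

end Vale.Agent.P291.Reg
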