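import Vale.Agent.P291.Reg.Gen
import Vale.Agent.P291.Sp2Blk
import Vale.Agent.P291.RCore

/-!
# The ideal of the elements of nonzero weight
-/

set_option linter.unusedSectionVars false
set_option linter.unusedSimpArgs false

open MvPolynomial

namespace Vale.Agent.P291.Reg

variable {I E : Type} [Fintype I] [DecidableEq I] [Fintype E] (Q : QData I E)
  {L : Type} [CommRing L] [IsDomain L] (m : Q.Fl → L) (ν : I → ℤ)

theorem nuWt_add (a b : Q.Col → ℤ) : Q.nuWt ν (a + b) = Q.nuWt ν a + Q.nuWt ν b := by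
  unfold QData.nuWt
  rw [← Finset.sum_add_distrib]
  refine Finset.sum_congr rfl fun c _ => ?_
  rw [Pi.add_apply, mul_add]

theorem nuWt_zero : Q.nuWt ν 0 = 0 := by
  unfold QData.nuWt
  simp

theorem nuWt_lact {σ : Equiv.Perm Q.Col} (hσ : σ ∈ (core Q m).W) (a : Q.Col → ℤ) :
    Q.nuWt ν (lact σ a) = Q.nuWt ν a := by
  unfold QData.nuWt
  refine (Fintype.sum_equiv σ _ _ ?_).symm
  intro c
  have h : (σ c).1 = c.1 := hσ c
  rw [h, lact_apply]

/-- homogeneous elements -/
def Hm (k : ℤ) (z : AA Q.Col L) : Prop := ∀ lam, z.coeff lam ≠ 0 → Q.nuWt ν lam = k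

variable {Q ν}

theorem Hm.mul {i j : ℤ} {x y : AA Q.Col L} (hx : Hm Q ν i x) (hy : Hm Q ν j y) :
    Hm Q ν (i + j) (x * y) := by
  classical
  intro lam h
  have h1 := AddMonoidAlgebra.support_coeff_mul_subset x y (Finsupp.mem_support_iff.mpr h)
  obtain ⟨a, ha, b, hb, rfl⟩ := Finset.mem_add.mp h1
  rw [nuWt_add, hx a (Finsupp.mem_support_iff.mp ha), hy b (Finsupp.mem_support_iff.mp hb)]

theorem Hm.cst (f : MvPolynomial Q.Col L) : Hm Q ν 0 (QD.cst f) := by
  intro lam h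
  by_cases h0 : lam = 0
  · rw [h0, nuWt_zero]
  · refine absurd ?_ h
    unfold QD.cst
    rw [AddMonoidAlgebra.coeff_single, Finsupp.single_eq_of_ne h0]

variable (Q ν)

/-- projection to the elements of weight `k` -/
noncomputable def pr (k : ℤ) : AA Q.Col L →+ AA Q.Col L :=
  (AddMonoidAlgebra.coeffAddEquiv.symm.toAddMonoidHom.comp
    (Finsupp.filterAddHom (fun lam => Q.nuWt ν lam = k))).comp
      AddMonoidAlgebra.coeffAddEquiv.toAddMonoidHom

theorem pr_coeff (k : ℤ) (z : AA Q.Col L) (lam : Q.Col → ℤ) :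
    (pr Q ν k z).coeff lam = if Q.nuWt ν lam = k then z.coeff lam else 0 := by
  have h : (pr Q ν k z).coeff lam = (z.coeff.filter (fun lam => Q.nuWt ν lam = k)) lam := rfl
  rw [h, Finsupp.filter_apply]

variable {Q ν}

theorem Hm.pr_eq {k : ℤ} {z : AA Q.Col L} (hz : Hm Q ν k z) : pr Q ν k z = z := by
  apply AddMonoidAlgebra.ext
  ext lam
  rw [pr_coeff]
  by_cases h : Q.nuWt ν lam = k
  · rw [if_pos h]
  · rw [if_neg h]
    by_contra h1
    exact h (hz lam (Ne.symm h1))

theorem Hm.pr_eq_zero {k j : ℤ} {z : AA Q.Col L} (hz : Hm Q ν k z) (hkj : k ≠ j) :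
    pr Q ν j z = 0 := by
  apply AddMonoidAlgebra.ext
  ext lam
  rw [pr_coeff]
  by_cases h : Q.nuWt ν lam = j
  · rw [if_pos h]
    by_contra h1
    exact hkj ((hz lam h1).symm.trans h)
  · rw [if_neg h]
    rfl

variable (Q ν)

/-- the part of weight `k` of a dressing -/
noncomputable def part (k : ℤ) (F : Finset (Option Q.Col) → MvPolynomial Q.Col L) :
    Finset (Option Q.Col) → MvPolynomial Q.Col L :=
  fun V => if Q.nuWt ν (lamV V) = k then F V else 0

theorem part_mem (k : ℤ) {F : Finset (Option Q.Col) → MvPolynomial Q.Col L}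
    (hF : F ∈ (core Q m).Eqv) : part Q ν k F ∈ (core Q m).Eqv := by
  intro σ hσ V
  unfold part
  rw [lamV_vact, nuWt_lact Q m ν hσ, hF σ hσ V]
  split_ifs
  · rfl
  · rw [map_zero]

theorem Hm_M_part (k : ℤ) (F : Finset (Option Q.Col) → MvPolynomial Q.Col L) :
    Hm Q ν k ((core Q m).M (part Q ν k F)) := by
  intro lam h
  unfold QD.M at h
  rw [AddMonoidAlgebra.coeff_sum, Finsupp.finsetSum_apply] at h
  obtain ⟨V, _, hV⟩ := Finset.exists_ne_zero_of_sum_ne_zero h
  rw [AddMonoidAlgebra.coeff_single] at hV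
  have h1 : lamV V = lam := by
    by_contra h2
    exact hV (Finsupp.single_eq_of_ne (Ne.symm h2))
  rw [← h1]
  by_contra h3
  apply hV
  unfold part
  rw [if_neg h3]
  unfold toK
  rw [map_zero, zero_mul, Finsupp.single_zero]
  rfl

/-- the weights that occur -/
noncomputable def wts : Finset ℤ :=
  Finset.univ.image (fun V : Finset (Option Q.Col) => Q.nuWt ν (lamV V))

theorem sum_part (F : Finset (Option Q.Col) → MvPolynomial Q.Col L) :
    F = ∑ k ∈ wts Q ν, part Q ν k F := by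
  funext V
  rw [Finset.sum_apply]
  unfold part
  rw [Finset.sum_ite_eq]
  rw [if_pos]
  unfold wts
  exact Finset.mem_image_of_mem _ (Finset.mem_univ V)

theorem M_part (F : Finset (Option Q.Col) → MvPolynomial Q.Col L) :
    (core Q m).M F = ∑ k ∈ wts Q ν, (core Q m).M (part Q ν k F) := by
  rw [← M_sum, ← sum_part]

theorem lamV_univ : lamV (Finset.univ : Finset (Option Q.Col)) = 0 := by
  funext b
  unfold lamV
  rw [if_pos (Finset.mem_univ _), if_pos (Finset.mem_univ _)]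
  rfl

theorem part_mem_II {k : ℤ} (hk : k ≠ 0) {F : Finset (Option Q.Col) → MvPolynomial Q.Col L}
    (hF : F ∈ (core Q m).Eqv) : (core Q m).M (part Q ν k F) ∈ (core Q m).II := by
  apply Submodule.subset_span
  refine ⟨_, part_mem Q m ν k hF, ?_, ?_, rfl⟩
  · unfold part
    rw [TB.lamV_empty, nuWt_zero, if_neg (Ne.symm hk)]
  · unfold part
    rw [lamV_univ, nuWt_zero, if_neg (Ne.symm hk)]

/-- homogeneous elements of the algebra, in `II` if the weight is not zero -/
noncomputable def HmA : Submonoid (AA Q.Col L) where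
  carrier := {z | z ∈ (core Q m).A ∧ ∃ k : ℤ, Hm Q ν k z ∧ (k ≠ 0 → z ∈ (core Q m).II)}
  mul_mem' := by
    rintro x y ⟨hx, i, hi, hxi⟩ ⟨hy, j, hj, hyj⟩
    refine ⟨mul_mem hx hy, i + j, hi.mul hj, ?_⟩
    intro hij
    by_cases h : i = 0
    · have hj0 : j ≠ 0 := by
        rintro rfl
        exact hij (by rw [h]; rfl)
      exact TB.II_mul_mem _ hx (hyj hj0)
    · rw [mul_comm]
      exact TB.II_mul_mem _ hy (hxi h)
  one_mem' := by
    refine ⟨one_mem _, 0, ?_, fun h => absurd rfl h⟩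
    have h := Hm.cst (Q := Q) (ν := ν) (L := L) 1
    have h1 : (QD.cst 1 : AA Q.Col L) = 1 := by
      unfold QD.cst toK
      rw [map_one]
      rfl
    rwa [h1] at h

theorem M_mem_HmA (k : ℤ) {F : Finset (Option Q.Col) → MvPolynomial Q.Col L}
    (hF : F ∈ (core Q m).Eqv) : (core Q m).M (part Q ν k F) ∈ HmA Q m ν :=
  ⟨TB.M_mem _ (part_mem Q m ν k hF), k, Hm_M_part Q m ν k F,
    fun hk => part_mem_II Q m ν hk hF⟩

theorem A_le (z : AA Q.Col L) (hz : z ∈ (core Q m).A) :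
    z ∈ (HmA Q m ν).subsemiringClosure := by
  refine Algebra.adjoin_induction (R := L) (A := AA Q.Col L)
    (p := fun z _ => z ∈ (HmA Q m ν).subsemiringClosure) ?_ ?_ ?_ ?_ hz
  · rintro x ⟨F, hF, rfl⟩
    rw [M_part Q m ν F]
    refine sum_mem fun k _ => ?_
    rw [Submonoid.subsemiringClosure_mem]
    exact AddSubmonoid.subset_closure (M_mem_HmA Q m ν k hF)
  · intro r
    rw [Submonoid.subsemiringClosure_mem]
    refine AddSubmonoid.subset_closure ⟨Subalgebra.algebraMap_mem _ r, 0, ?_,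
      fun h => absurd rfl h⟩
    rw [algebraMap_AA]
    exact Hm.cst (C r)
  · exact fun x y _ _ hx hy => add_mem hx hy
  · exact fun x y _ _ hx hy => mul_mem hx hy

theorem pr_mem_II {k : ℤ} (hk : k ≠ 0) {z : AA Q.Col L} (hz : z ∈ (core Q m).A) :
    pr Q ν k z ∈ (core Q m).II := by
  have h := A_le Q m ν z hz
  rw [Submonoid.subsemiringClosure_mem] at h
  refine AddSubmonoid.closure_induction (motive := fun z _ => pr Q ν k z ∈ (core Q m).II)
    ?_ ?_ ?_ h
  · rintro x ⟨_, j, hj, hxj⟩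
    by_cases hjk : j = k
    · subst hjk
      rw [hj.pr_eq]
      exact hxj hk
    · rw [hj.pr_eq_zero hjk]
      exact zero_mem _
  · rw [map_zero]
    exact zero_mem _
  · intro x y _ _ hx hy
    rw [map_add]
    exact add_mem hx hy

theorem mem_II_of_Hm {k : ℤ} (hk : k ≠ 0) {z : AA Q.Col L} (hz : z ∈ (core Q m).A)
    (h : Hm Q ν k z) : z ∈ (core Q m).II := by
  rw [← h.pr_eq]
  exact pr_mem_II Q m ν hk hz

theorem II_of_J [Algebra ℚ L] {x : Q.AF m} (hx : x ∈ Q.J m ν) :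
    (Q.val m x : AA Q.Col L) ∈ (core Q m).II := by
  refine Submodule.span_induction
    (p := fun (x : Q.AF m) _ => (Q.val m x : AA Q.Col L) ∈ (core Q m).II) ?_ ?_ ?_ ?_ hx
  · rintro x ⟨k, hk, h⟩
    exact mem_II_of_Hm Q m ν hk ((mem_alg Q m _).mp x.2) h
  · exact (core Q m).II.zero_mem
  · intro x y _ _ hx hy
    exact (core Q m).II.add_mem hx hy
  · intro a x _ hx
    exact TB.II_mul_mem _ ((mem_alg Q m _).mp a.2) hx

theorem J_of_JN [Algebra ℚ L] {z : AA Q.Col L} (hz : z ∈ (core Q m).JN ν) :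
    ∃ x : Q.AF m, x ∈ Q.J m ν ∧ Q.val m x = z := by
  refine Submodule.span_induction
    (p := fun (z : AA Q.Col L) _ => ∃ x : Q.AF m, x ∈ Q.J m ν ∧ Q.val m x = z) ?_ ?_ ?_ ?_ hz
  · rintro z ⟨F, hF, h0, rfl⟩
    have h2 : ∀ k, ∃ x : Q.AF m, x ∈ Q.J m ν ∧ Q.val m x = (core Q m).M (part Q ν k F) := by
      intro k
      by_cases hk : k = 0
      · subst hk
        refine ⟨0, (Q.J m ν).zero_mem, ?_⟩
        have h3 : part Q ν 0 F = 0 := by
          funext V
          unfold part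
          by_cases hV : F V = 0
          · rw [hV, ite_self]; rfl
          · have h5 : Q.nuWt ν (lamV V) ≠ 0 := h0 V hV
            rw [if_neg h5]; rfl
        rw [h3]
        have h4 : (core Q m).M (0 : Finset (Option Q.Col) → MvPolynomial Q.Col L) = 0 := by
          unfold QD.M toK
          apply Finset.sum_eq_zero
          intro V _
          rw [Pi.zero_apply, map_zero, zero_mul, AddMonoidAlgebra.single_zero]
        rw [h4]
        exact map_zero (Q.val m)
      · exact ⟨⟨_, (mem_alg Q m _).mpr (TB.M_mem _ (part_mem Q m ν k hF))⟩,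
          Ideal.subset_span ⟨k, hk, Hm_M_part Q m ν k F⟩, rfl⟩
    choose x hx hxF using h2
    refine ⟨∑ k ∈ wts Q ν, x k, Ideal.sum_mem _ fun k _ => hx k, ?_⟩
    rw [map_sum]
    refine (Finset.sum_congr rfl fun k _ => hxF k).trans ?_
    exact (M_part Q m ν F).symm
  · exact ⟨0, (Q.J m ν).zero_mem, map_zero (Q.val m)⟩
  · rintro _ _ _ _ ⟨a, ha, rfl⟩ ⟨b, hb, rfl⟩
    exact ⟨a + b, (Q.J m ν).add_mem ha hb, map_add (Q.val m) a b⟩
  · rintro c _ _ ⟨b, hb, rfl⟩
    refine ⟨⟨c.1, (mem_alg Q m _).mpr c.2⟩ * b, (Q.J m ν).mul_mem_left _ hb, ?_⟩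
    exact map_mul (Q.val m) _ b

/-- `J` is the ideal `II` of Core -/
theorem mem_J_iff [Algebra ℚ L] (hν : (core Q m).II ≤ (core Q m).JN ν) (x : Q.AF m) :
    x ∈ Q.J m ν ↔ (Q.val m x : AA Q.Col L) ∈ (core Q m).II := by
  constructor
  · exact II_of_J Q m ν
  · intro h
    obtain ⟨y, hy, hyx⟩ := J_of_JN Q m ν (hν h)
    have : y = x := Subtype.ext hyx
    rwa [this] at hy

end Vale.Agent.P291.Reg
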