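import Vale.Agent.P291.Reg.Surj

/-!
# The two kernels
-/

set_option linter.unusedSectionVars false
set_option linter.unusedSimpArgs false

open MvPolynomial

namespace Vale.Agent.P291.Reg

section

variable {I E : Type} [Fintype I] [DecidableEq I] [Fintype E] (Q : QData I E)
  {L : Type} [CommRing L] [IsDomain L] (m : Q.Fl → L) (ν : I → ℤ)

theorem mem_IT (f : MvPolynomial Q.Col L) : f ∈ Q.IT m ↔ f ∈ (core Q m).IT := by
  constructor
  · intro hf
    refine Submodule.span_induction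
      (p := fun (f : Q.SS L) _ => (f : MvPolynomial Q.Col L) ∈ (core Q m).IT) ?_ ?_ ?_ ?_ hf
    · rintro x ⟨U, hU, rfl⟩
      exact Ideal.subset_span ⟨U, hU, cut_eq Q m U⟩
    · exact (core Q m).IT.zero_mem
    · exact fun x y _ _ hx hy => (core Q m).IT.add_mem hx hy
    · exact fun a x _ hx => (core Q m).IT.mul_mem_left _ hx
  · intro hf
    refine Submodule.span_induction
      (p := fun (f : MvPolynomial Q.Col L) _ => (f : Q.SS L) ∈ Q.IT m) ?_ ?_ ?_ ?_ hf
    · rintro x ⟨U, hU, rfl⟩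
      exact Ideal.subset_span ⟨U, hU, (cut_eq Q m U).symm⟩
    · exact (Q.IT m).zero_mem
    · exact fun x y _ _ hx hy => (Q.IT m).add_mem hx hy
    · exact fun a x _ hx => (Q.IT m).mul_mem_left _ hx

theorem mem_IT_D (f : MvPolynomial Q.Col L) :
    f * discM Q ∈ Q.IT m ↔ (core Q m).D * f ∈ (core Q m).IT := by
  refine (mem_IT Q m (f * discM Q)).trans ?_
  rw [← discM_eq, mul_comm]

theorem mem_colon (f : MvPolynomial Q.Col L) :
    f ∈ (Q.IT m).colon {Q.disc L} ↔ (core Q m).D * f ∈ (core Q m).IT :=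
  (Submodule.mem_colon_singleton (N := Q.IT m) (x := Q.disc L) (r := f)).trans (mem_IT_D Q m f)

/-- `D` is invariant -/
theorem rename_D {σ : Equiv.Perm Q.Col} (hσ : σ ∈ (core Q m).W) :
    rename σ (core Q m).D = (core Q m).D := by
  unfold QD.D
  rw [map_prod]
  refine Finset.prod_equiv (Equiv.prodCongr σ σ) ?_ ?_
  · intro p
    simp [QD.Prs, (mem_W (core Q m)).1 hσ]
  · intro p _
    simp

theorem rename_cut {σ : Equiv.Perm Q.Col} (hσ : σ ∈ (core Q m).W) (U : Finset Q.Col) :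
    rename σ ((core Q m).cut U) = (core Q m).cut (U.map σ.toEmbedding) := by
  unfold QD.cut
  rw [map_prod]
  refine Finset.prod_equiv (wtEquiv σ) ?_ ?_
  · intro p
    simp only [Finset.mem_filter, wtEquiv_mem (core Q m) hσ p]
    have h1 : (wtEquiv σ p).2.1 ∈ U.map σ.toEmbedding ↔ p.2.1 ∈ U := by
      simp [wtEquiv]
    have h2 : (∃ b ∈ U.map σ.toEmbedding, (wtEquiv σ p).2.2 = some b) ↔
        ∃ b ∈ U, p.2.2 = some b := by
      obtain ⟨a, r, o⟩ := p
      cases o with
      | none => simp [wtEquiv]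
      | some c => simp [wtEquiv]
    rw [h1, h2]
  · intro p _
    rw [rename_xi]

theorem rename_IT {σ : Equiv.Perm Q.Col} (hσ : σ ∈ (core Q m).W) {f : MvPolynomial Q.Col L}
    (hf : f ∈ (core Q m).IT) : rename σ f ∈ (core Q m).IT := by
  have h1 : (core Q m).IT ≤
      (core Q m).IT.comap (rename σ : MvPolynomial Q.Col L →ₐ[L] MvPolynomial Q.Col L) := by
    conv_lhs => unfold QD.IT
    rw [Ideal.span_le]
    rintro _ ⟨U, hU, rfl⟩
    rw [SetLike.mem_coe, Ideal.mem_comap, rename_cut Q m hσ]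
    exact Ideal.subset_span ⟨_, hU.map, rfl⟩
  exact h1 hf

/-- averaging over the Weyl group -/
noncomputable def avg [Algebra ℚ L] (g : MvPolynomial Q.Col L) : MvPolynomial Q.Col L :=
  C (algebraMap ℚ L (Fintype.card Q.Wy : ℚ)⁻¹) * ∑ σ : Q.Wy, rename (Q.act σ) g

theorem avg_mem [Algebra ℚ L] (g : MvPolynomial Q.Col L) : avg Q g ∈ (core Q m).R := by
  intro τ hτ
  obtain ⟨ρ, rfl⟩ := exists_act Q m hτ
  unfold avg
  rw [map_mul, rename_C, map_sum]
  congr 1
  refine Fintype.sum_bijective (fun σ => ρ * σ) (Group.mulLeft_bijective ρ) _ _ ?_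
  intro σ
  rw [act_mul, rename_mul]

theorem avg_of_mem [Algebra ℚ L] {g : MvPolynomial Q.Col L} (hg : g ∈ (core Q m).R) :
    avg Q g = g := by
  unfold avg
  have h : ∀ σ : Q.Wy, rename (Q.act σ) g = g := fun σ => hg _ (act_mem Q m σ)
  rw [Finset.sum_congr rfl (fun σ _ => h σ), Finset.sum_const, Finset.card_univ, nsmul_eq_mul]
  have h1 : ((Fintype.card Q.Wy : ℕ) : MvPolynomial Q.Col L) =
      C (algebraMap ℚ L (Fintype.card Q.Wy : ℚ)) := by
    rw [map_natCast, map_natCast]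
  rw [h1, ← mul_assoc, ← map_mul, ← map_mul, inv_mul_cancel₀, map_one, map_one, one_mul]
  exact Nat.cast_ne_zero.mpr Fintype.card_ne_zero

theorem D_avg [Algebra ℚ L] {g : MvPolynomial Q.Col L}
    (hg : (core Q m).D * g ∈ (core Q m).IT) : (core Q m).D * avg Q g ∈ (core Q m).IT := by
  unfold avg
  rw [mul_left_comm, Finset.mul_sum]
  refine Ideal.mul_mem_left _ _ (Ideal.sum_mem _ fun σ _ => ?_)
  have h1 : (core Q m).D * rename (Q.act σ) g = rename (Q.act σ) ((core Q m).D * g) := by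
    rw [map_mul, rename_D Q m (act_mem Q m σ)]
  rw [h1]
  exact rename_IT Q m (act_mem Q m σ) hg

end

section

variable {I E : Type} [Fintype I] [DecidableEq I] [Fintype E] (Q : QData I E)
  {L : Type} [CommRing L] [IsDomain L] [Algebra ℚ L] (m : Q.Fl → L) (ν : I → ℤ)

theorem map_avg (g : MvPolynomial Q.Col (MvPolynomial E L)) :
    MvPolynomial.map MvPolynomial.constantCoeff (avg Q g) =
      avg Q (MvPolynomial.map MvPolynomial.constantCoeff g) := by
  unfold avg
  rw [map_mul, map_C, map_sum]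
  congr 1
  · congr 1
    rw [IsScalarTower.algebraMap_apply ℚ L (MvPolynomial E L), MvPolynomial.algebraMap_eq,
      MvPolynomial.constantCoeff_C]
  · refine Finset.sum_congr rfl fun σ _ => ?_
    rw [MvPolynomial.map_rename]

theorem mem_JH (r : Q.RR L) : r ∈ Q.JH m ↔
    ∃ g : MvPolynomial Q.Col (MvPolynomial E L),
      (core Q (Q.hat m)).D * g ∈ (core Q (Q.hat m)).IT ∧
        (MvPolynomial.map MvPolynomial.constantCoeff g : MvPolynomial Q.Col L) = Q.toSS L r := by
  have hs : Function.Surjective (Q.spec L) :=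
    MvPolynomial.map_surjective _ (fun x => ⟨MvPolynomial.C x, MvPolynomial.constantCoeff_C _ _⟩)
  unfold QData.JH
  rw [Ideal.mem_comap, Ideal.mem_map_iff_of_surjective _ hs]
  constructor
  · rintro ⟨g, hg, h⟩
    exact ⟨g, (mem_colon Q (Q.hat m) g).mp hg, h⟩
  · rintro ⟨g, hg, h⟩
    exact ⟨g, (mem_colon Q (Q.hat m) g).mpr hg, h⟩

theorem mem_JH' (r : Q.RR L) : r ∈ Q.JH m ↔
    ∃ g ∈ (core Q (Q.hat m)).JD,
      (MvPolynomial.map MvPolynomial.constantCoeff g : MvPolynomial Q.Col L) = Q.toSS L r := by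
  rw [mem_JH]
  constructor
  · rintro ⟨g, hg, h⟩
    refine ⟨avg Q g, ⟨avg_mem Q (Q.hat m) g, D_avg Q (Q.hat m) hg⟩, ?_⟩
    rw [map_avg, h]
    exact avg_of_mem Q m ((mem_inv Q m _).mp r.2)
  · rintro ⟨g, hg, h⟩
    exact ⟨g, hg.2, h⟩

theorem nonzeroLoops_hat : (core Q (Q.hat m)).NonzeroLoops := by
  classical
  intro a ha
  rcases a with e | l
  · intro h0
    have h1 : (MvPolynomial.C (m (Sum.inl e)) + MvPolynomial.X e : MvPolynomial E L) = 0 := h0
    have h2 := congrArg (MvPolynomial.coeff (Finsupp.single e 1)) h1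
    have h3 : (0 : E →₀ ℕ) ≠ Finsupp.single e 1 := by
      intro h
      have := DFunLike.congr_fun h e
      simp at this
    rw [MvPolynomial.coeff_add, MvPolynomial.coeff_C, if_neg h3, MvPolynomial.coeff_X,
      if_pos rfl, MvPolynomial.coeff_zero, zero_add] at h2
    exact one_ne_zero h2
  · exact absurd ha (by simp [core])

theorem hat_spec (a : Q.Fl) :
    (core Q m).t a = MvPolynomial.constantCoeff ((core Q (Q.hat m)).t a) := by
  rcases a with e | l
  · have : MvPolynomial.constantCoeff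
      (MvPolynomial.C (m (Sum.inl e)) + MvPolynomial.X e : MvPolynomial E L) = m (Sum.inl e) := by
      simp
    exact this.symm
  · have : MvPolynomial.constantCoeff
      (MvPolynomial.C (m (Sum.inr l)) : MvPolynomial E L) = m (Sum.inr l) := by
      simp
    exact this.symm

/-- the kernels of the two maps agree -/
theorem JH_eq (hν : (core Q m).II ≤ (core Q m).JN ν)
    (hD : ∀ f : MvPolynomial Q.Col (MvPolynomial E L),
      f ∈ (core Q (Q.hat m)).JC ↔ f ∈ (core Q (Q.hat m)).JD) :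
    Q.JH m = RingHom.ker (Q.phiC m ν) := by
  have hsp : (core Q m).src = (core Q (Q.hat m)).src ∧ (core Q m).tgt = (core Q (Q.hat m)).tgt ∧
      (core Q m).vx = (core Q (Q.hat m)).vx ∧
      ∀ a, (core Q m).t a = MvPolynomial.constantCoeff ((core Q (Q.hat m)).t a) :=
    ⟨rfl, rfl, rfl, hat_spec Q m⟩
  ext r
  rw [mem_ker_phiC Q m ν hν, mem_JH']
  constructor
  · rintro ⟨g, hg, hgr⟩
    have h1 := JC_map (core Q m) (core Q (Q.hat m)) MvPolynomial.constantCoeff hsp
      ((hD _).mpr hg)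
    rwa [hgr] at h1
  · intro hr
    obtain ⟨f', hf', hf⟩ := JC_lift (core Q m) (core Q (Q.hat m)) (nonzeroLoops_hat Q m)
      MvPolynomial.constantCoeff (fun x => ⟨MvPolynomial.C x, MvPolynomial.constantCoeff_C _ _⟩)
      hsp hr
    exact ⟨f', (hD _).mp hf', hf⟩

/-- the final isomorphism -/
theorem main (hν : (core Q m).II ≤ (core Q m).JN ν)
    (hD : ∀ f : MvPolynomial Q.Col (MvPolynomial E L),
      f ∈ (core Q (Q.hat m)).JC ↔ f ∈ (core Q (Q.hat m)).JD) : Q.Hikita m ν := by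
  refine ⟨(Ideal.quotEquivOfEq (JH_eq Q m ν hν hD)).trans
    (RingHom.quotientKerEquivOfSurjective (phiC_surjective Q m ν hν)), fun r => ?_⟩
  rfl

end

end Vale.Agent.P291.Reg
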