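import Vale.Agent.P291.Reg.Ker
import Vale.Agent.P291.Link.L4Blk
import Vale.Agent.P291.R10Blk
import Vale.Agent.P291.Main

/-!
# Regular characters
-/

set_option linter.unusedSectionVars false

open MvPolynomial

namespace Vale.Agent.P291.Reg

variable {I E : Type} [Fintype I] [DecidableEq I] [Fintype E] (Q : QData I E)

/-- representations in the format of Link -/
abbrev LRp : Type := Link.Rp ℂ Q.s Q.t (fun l : (Σ i : I, Fin (Q.w i)) => l.1)
  (fun i => Fin (Q.v i) → ℂ)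

variable {Q}

/-- the coordinates of a point -/
noncomputable def pt (z : LRp Q) : Q.Pt ℂ where
  x e := LinearMap.toMatrix' (z.x e)
  y e := LinearMap.toMatrix' (z.y e)
  j i := Matrix.of fun l r => z.j ⟨i, l⟩ (Pi.single r 1)
  i i := Matrix.of fun r l => z.i ⟨i, l⟩ r

theorem pt_x (z : LRp Q) (e : E) (u : Fin (Q.v (Q.s e)) → ℂ) :
    ((pt z).x e).mulVec u = z.x e u := LinearMap.toMatrix'_mulVec _ _

theorem pt_y (z : LRp Q) (e : E) (u : Fin (Q.v (Q.t e)) → ℂ) :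
    ((pt z).y e).mulVec u = z.y e u := LinearMap.toMatrix'_mulVec _ _

theorem pt_j (z : LRp Q) (i : I) (u : Fin (Q.v i) → ℂ) (l : Fin (Q.w i)) :
    ((pt z).j i).mulVec u l = z.j ⟨i, l⟩ u := by
  have h1 : u = ∑ r, u r • (Pi.single r 1 : Fin (Q.v i) → ℂ) := by
    funext r
    simp [Finset.sum_apply, Pi.single_apply]
  conv_rhs => rw [h1]
  rw [map_sum]
  unfold Matrix.mulVec dotProduct
  refine Finset.sum_congr rfl fun r _ => ?_
  rw [map_smul, smul_eq_mul, mul_comm]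
  rfl

theorem pt_i (z : LRp Q) (i : I) (a : Fin (Q.w i) → ℂ) :
    ((pt z).i i).mulVec a = ∑ l, a l • z.i ⟨i, l⟩ := by
  funext r
  have h : (∑ l, a l • z.i ⟨i, l⟩ : Fin (Q.v i) → ℂ) r =
      ∑ l, a l * (z.i ⟨i, l⟩ : Fin (Q.v i) → ℂ) r :=
    Finset.sum_apply (M := fun _ : Fin (Q.v i) => ℂ) r Finset.univ
      (fun l => a l • (z.i ⟨i, l⟩ : Fin (Q.v i) → ℂ))
  refine Eq.trans ?_ h.symm
  unfold Matrix.mulVec dotProduct
  refine Finset.sum_congr rfl fun l _ => ?_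
  exact mul_comm _ _

theorem trace_toMatrix' {n : ℕ} (f : (Fin n → ℂ) →ₗ[ℂ] (Fin n → ℂ)) :
    LinearMap.trace ℂ _ f = (LinearMap.toMatrix' f).trace := by
  rw [LinearMap.trace_eq_matrix_trace ℂ (Pi.basisFun ℂ (Fin n)) f,
    LinearMap.toMatrix_eq_toMatrix']

theorem pt_mu (z : LRp Q) (ξ : ∀ i : I, Matrix (Fin (Q.v i)) (Fin (Q.v i)) ℂ) :
    (pt z).mu ξ = z.mu (fun i => Matrix.toLin' (ξ i)) := by
  unfold QData.Pt.mu Link.Rp.mu
  congr 1
  · refine Finset.sum_congr rfl fun e _ => ?_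
    rw [trace_toMatrix', LinearMap.toMatrix'_comp, map_sub, LinearMap.toMatrix'_comp,
      LinearMap.toMatrix'_comp, LinearMap.toMatrix'_toLin', LinearMap.toMatrix'_toLin']
    rfl
  · rw [Fintype.sum_sigma]
    refine Finset.sum_congr rfl fun i _ => ?_
    rw [Matrix.trace_mul_comm]
    unfold Matrix.trace
    refine Finset.sum_congr rfl fun l _ => ?_
    rw [Matrix.diag_apply, Matrix.mul_assoc, Matrix.toLin'_apply]
    have h : ((pt z).j i * (ξ i * (pt z).i i)) l l =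
        ((pt z).j i).mulVec ((ξ i).mulVec (z.i ⟨i, l⟩)) l := by
      rw [Matrix.mul_apply]
      unfold Matrix.mulVec dotProduct
      refine Finset.sum_congr rfl fun r _ => ?_
      rw [Matrix.mul_apply]
      rfl
    rw [h, pt_j]

theorem pt_sub (z : LRp Q) (U : ∀ i : I, Submodule ℂ (Fin (Q.v i) → ℂ)) :
    (pt z).IsSub U ↔ z.Sub U := by
  unfold QData.Pt.IsSub Link.Rp.Sub
  constructor
  · intro h
    refine ⟨fun e u hu => ?_, fun e u hu => ?_⟩
    · rw [Submodule.mem_comap, ← pt_x]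
      exact (h e).1 u hu
    · rw [Submodule.mem_comap, ← pt_y]
      exact (h e).2 u hu
  · intro h e
    refine ⟨fun u hu => ?_, fun u hu => ?_⟩
    · rw [pt_x]
      exact h.1 e hu
    · rw [pt_y]
      exact h.2 e hu

theorem pt_ker (z : LRp Q) (U : ∀ i : I, Submodule ℂ (Fin (Q.v i) → ℂ)) :
    (∀ i, ∀ u ∈ U i, ((pt z).j i).mulVec u = 0) ↔
      ∀ l : (Σ i : I, Fin (Q.w i)), U l.1 ≤ LinearMap.ker (z.j l) := by
  constructor
  · rintro h ⟨i, l⟩ u hu
    rw [LinearMap.mem_ker, ← pt_j, h i u hu]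
    rfl
  · intro h i u hu
    funext l
    rw [pt_j]
    exact h ⟨i, l⟩ hu

theorem pt_im (z : LRp Q) (U : ∀ i : I, Submodule ℂ (Fin (Q.v i) → ℂ)) :
    (∀ (i : I) (a : Fin (Q.w i) → ℂ), ((pt z).i i).mulVec a ∈ U i) ↔
      ∀ l : (Σ i : I, Fin (Q.w i)), z.i l ∈ U l.1 := by
  constructor
  · rintro h ⟨i, l⟩
    have h1 := h i (Pi.single l 1)
    rw [pt_i, Finset.sum_eq_single l] at h1
    · rw [Pi.single_eq_same, one_smul] at h1
      exact h1
    · intro l' _ hl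
      rw [Pi.single_eq_of_ne hl, zero_smul]
    · intro hl
      exact absurd (Finset.mem_univ _) hl
  · intro h i a
    rw [pt_i]
    exact Submodule.sum_mem _ fun l _ => Submodule.smul_mem _ _ (h ⟨i, l⟩)

theorem dim_eq (ν : I → ℤ) (U : ∀ i : I, Submodule ℂ (Fin (Q.v i) → ℂ)) :
    ∑ i, ν i * ((Module.finrank ℂ (Fin (Q.v i) → ℂ) : ℤ) - Module.finrank ℂ (U i)) =
      ∑ i, ν i * (Q.v i : ℤ) - QData.pair ν U := by
  unfold QData.pair
  rw [← Finset.sum_sub_distrib]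
  refine Finset.sum_congr rfl fun i _ => ?_
  rw [Module.finrank_fin_fun, mul_sub]

theorem pt_SS (z : LRp Q) (ν : I → ℤ) (h : z.SS ν) : (pt z).SS ν := by
  intro U hU
  obtain ⟨h1, h2⟩ := h U ((pt_sub z U).mp hU)
  refine ⟨fun hj => h1 ((pt_ker z U).mp hj), fun hi => ?_⟩
  have h3 := h2 ((pt_im z U).mp hi)
  rw [dim_eq] at h3
  linarith

theorem pt_St (z : LRp Q) (ν : I → ℤ) (h : (pt z).St ν) : z.St ν := by
  intro U hU
  obtain ⟨h1, h2⟩ := h U ((pt_sub z U).mpr hU)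
  refine ⟨fun hj hne => h1 ((pt_ker z U).mpr hj) hne, fun hi hne => ?_⟩
  have h3 := h2 ((pt_im z U).mpr hi) hne
  rw [dim_eq]
  linarith

/-- regular characters in the sense of the problem are regular in the sense of the proof -/
theorem reg_core {L : Type} [CommRing L] [IsDomain L] [Algebra ℚ L] (m : Q.Fl → L) (ν : I → ℤ)
    (hν : Q.Regular ν) : (core Q m).Reg ν := by
  classical
  refine Link.reg_of_regular (core Q m) Q.s Q.t (fun l : (Σ i : I, Fin (Q.w i)) => l.1)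
    (fun _ => rfl) (fun _ => rfl) (fun _ => rfl) (fun _ => rfl) ν (fun i => Fin (Q.v i) → ℂ)
    ?_ ?_
  · intro i
    rw [Module.finrank_fin_fun]
    have e : {b : Q.Col // (core Q m).vx b = i} ≃ Fin (Q.v i) :=
      Equiv.sigmaSubtype i
    rw [Fintype.card_congr e, Fintype.card_fin]
  · intro z hz hss
    refine pt_St z ν (hν (pt z) (fun ξ => ?_) (pt_SS z ν hss))
    rw [pt_mu]
    exact hz _

theorem hikita_of_regular {L : Type} [CommRing L] [IsDomain L] [Algebra ℚ L] (m : Q.Fl → L)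
    (ν : I → ℤ) (hν : Q.Regular ν) : Q.Hikita m ν :=
  main Q m ν (II_le_JN (core Q m) ν (reg_core m ν hν)) fun f =>
    Set.ext_iff.mp (JC_eq_JD (core Q (Q.hat m)) (nonzeroLoops_hat Q m)) f

end Vale.Agent.P291.Reg
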