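import Vale.Agent.P291.Reg.Defs
import Vale.Agent.P291.QBlk

/-!
# Comparison of the products over weights with those of Core
-/

set_option linter.unusedSectionVars false
set_option linter.unusedSimpArgs false

open MvPolynomial

namespace Vale.Agent.P291.Reg

variable {I E : Type} [Fintype I] [DecidableEq I] [Fintype E] (Q : QData I E)
  {L : Type} [CommRing L] [IsDomain L] (m : Q.Fl → L)

/-- The data of Core. -/
def core : QD I Q.Fl Q.Col L where
  src := Sum.elim Q.s (fun l => l.1)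
  tgt := Sum.elim (fun e => some (Q.t e)) (fun _ => none)
  vx := fun c => c.1
  t := m

theorem prod_col {M : Type} [CommMonoid M] (i0 : I) (g : Q.Col → M) :
    ∏ c : Q.Col, (if c.1 = i0 then g c else 1) = ∏ x : Fin (Q.v i0), g ⟨i0, x⟩ := by
  rw [Fintype.prod_sigma]
  rw [Finset.prod_eq_single i0]
  · refine Finset.prod_congr rfl fun x _ => ?_
    rw [if_pos rfl]
  · intro i _ hi
    apply Finset.prod_eq_one
    intro x _
    rw [if_neg hi]
  · intro h
    exact absurd (Finset.mem_univ _) h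

/-- A product over the weights of `N`. -/
theorem prod_wt {M : Type} [CommMonoid M] (f : Q.Fl × Q.Col × Option Q.Col → M) :
    ∏ p ∈ (core Q m).Wt, f p =
      (∏ e : E, ∏ p : Fin (Q.v (Q.t e)), ∏ r : Fin (Q.v (Q.s e)),
        f (Sum.inl e, ⟨Q.s e, r⟩, some ⟨Q.t e, p⟩)) *
      ∏ i : I, ∏ r : Fin (Q.v i), ∏ l : Fin (Q.w i), f (Sum.inr ⟨i, l⟩, ⟨i, r⟩, none) := by
  unfold QD.Wt
  rw [Finset.prod_filter, Fintype.prod_prod_type]
  rw [Fintype.prod_sum_type]
  congr 1
  · refine Finset.prod_congr rfl fun e _ => ?_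
    rw [Fintype.prod_prod_type]
    have h : ∀ r : Q.Col, (∏ s : Option Q.Col,
        if (core Q m).vx r = (core Q m).src (Sum.inl e) ∧
          (core Q m).vo s = (core Q m).tgt (Sum.inl e) then f (Sum.inl e, r, s) else 1)
        = if r.1 = Q.s e then ∏ p : Fin (Q.v (Q.t e)), f (Sum.inl e, r, some ⟨Q.t e, p⟩)
          else 1 := by
      intro r
      rw [Fintype.prod_option]
      have h0 : ¬ ((core Q m).vx r = (core Q m).src (Sum.inl e) ∧
          (core Q m).vo none = (core Q m).tgt (Sum.inl e)) := by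
        rintro ⟨_, h⟩
        exact absurd h (by simp [QD.vo, core])
      rw [if_neg h0, one_mul]
      by_cases hr : r.1 = Q.s e
      · rw [if_pos hr, ← prod_col Q (Q.t e) (fun c => f (Sum.inl e, r, some c))]
        refine Finset.prod_congr rfl fun c _ => ?_
        have : ((core Q m).vx r = (core Q m).src (Sum.inl e) ∧
          (core Q m).vo (some c) = (core Q m).tgt (Sum.inl e)) ↔ c.1 = Q.t e := by
          simp [QD.vo, core, hr]
        by_cases hc : c.1 = Q.t e
        · rw [if_pos hc, if_pos (this.mpr hc)]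
        · rw [if_neg hc, if_neg (fun h => hc (this.mp h))]
      · rw [if_neg hr]
        apply Finset.prod_eq_one
        intro c _
        rw [if_neg]
        rintro ⟨h, _⟩
        exact hr h
    rw [Finset.prod_congr rfl (fun r _ => h r)]
    rw [prod_col (M := M) Q (Q.s e)
      (fun r => ∏ p : Fin (Q.v (Q.t e)), f (Sum.inl e, r, some ⟨Q.t e, p⟩))]
    exact Finset.prod_comm
  · rw [Fintype.prod_sigma]
    refine Finset.prod_congr rfl fun i _ => ?_
    rw [show (∏ r : Fin (Q.v i), ∏ l : Fin (Q.w i), f (Sum.inr ⟨i, l⟩, ⟨i, r⟩, none)) =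
      ∏ l : Fin (Q.w i), ∏ r : Fin (Q.v i), f (Sum.inr ⟨i, l⟩, ⟨i, r⟩, none) from
        Finset.prod_comm]
    refine Finset.prod_congr rfl fun l _ => ?_
    rw [Fintype.prod_prod_type]
    have h : ∀ r : Q.Col, (∏ s : Option Q.Col,
        if (core Q m).vx r = (core Q m).src (Sum.inr ⟨i, l⟩) ∧
          (core Q m).vo s = (core Q m).tgt (Sum.inr ⟨i, l⟩) then f (Sum.inr ⟨i, l⟩, r, s) else 1)
        = if r.1 = i then f (Sum.inr ⟨i, l⟩, r, none) else 1 := by
      intro r
      rw [Fintype.prod_option]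
      have h1 : (∏ c : Q.Col, if (core Q m).vx r = (core Q m).src (Sum.inr ⟨i, l⟩) ∧
          (core Q m).vo (some c) = (core Q m).tgt (Sum.inr ⟨i, l⟩) then
            f (Sum.inr ⟨i, l⟩, r, some c) else 1) = 1 := by
        apply Finset.prod_eq_one
        intro c _
        rw [if_neg]
        rintro ⟨_, h⟩
        exact absurd h (by simp [QD.vo, core])
      rw [h1, mul_one]
      by_cases hr : r.1 = i
      · rw [if_pos hr, if_pos]
        exact ⟨hr, rfl⟩
      · rw [if_neg hr, if_neg]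
        rintro ⟨h, _⟩
        exact hr h
    rw [Finset.prod_congr rfl (fun r _ => h r)]
    exact prod_col Q i (fun r => f (Sum.inr ⟨i, l⟩, r, none))

/-- the factor `r^lam` in terms of `MvPolynomial` -/
noncomputable def rcM (lam : Q.Col → ℤ) : MvPolynomial Q.Col L :=
  (∏ e : E, ∏ p : Fin (Q.v (Q.t e)), ∏ r : Fin (Q.v (Q.s e)),
      (X ⟨Q.t e, p⟩ - X ⟨Q.s e, r⟩ + C (m (Sum.inl e))) ^
        (lam ⟨Q.s e, r⟩ - lam ⟨Q.t e, p⟩).toNat) *
    ∏ i : I, ∏ r : Fin (Q.v i), ∏ l : Fin (Q.w i),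
      (C (m (Sum.inr ⟨i, l⟩)) - X ⟨i, r⟩) ^ (lam ⟨i, r⟩).toNat

theorem rc_rfl (lam : Q.Col → ℤ) : Q.rc m lam = rcM Q m lam := rfl

theorem rcM_eq (lam : Q.Col → ℤ) : rcM Q m lam = (core Q m).rho lam := by
  unfold QD.rho
  rw [prod_wt]
  unfold rcM
  congr 1
  refine Finset.prod_congr rfl fun i _ => Finset.prod_congr rfl fun r _ =>
      Finset.prod_congr rfl fun l _ => ?_
  have h1 : (core Q m).xi (Sum.inr ⟨i, l⟩, ⟨i, r⟩, none)
      = (C (m (Sum.inr ⟨i, l⟩)) - X ⟨i, r⟩ : MvPolynomial Q.Col L) := by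
    have h2 : (core Q m).xi (Sum.inr ⟨i, l⟩, ⟨i, r⟩, none)
      = (0 - X ⟨i, r⟩ + C (m (Sum.inr ⟨i, l⟩)) : MvPolynomial Q.Col L) := rfl
    rw [h2]
    ring
  rw [h1]
  have h3 : ext lam none = 0 := rfl
  change _ = _ ^ (lam ⟨i, r⟩ - ext lam none).toNat
  rw [h3, sub_zero]

theorem rc_eq (lam : Q.Col → ℤ) : Q.rc m lam = (core Q m).rho lam := by
  rw [rc_rfl, rcM_eq]

theorem rho_mul (U : Finset Q.Col) : (core Q m).rho (Q.ind 1 U) * (core Q m).rho (Q.ind (-1) U) =
    (core Q m).cut U := by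
  unfold QD.rho QD.cut
  rw [← Finset.prod_mul_distrib, Finset.prod_filter]
  refine Finset.prod_congr rfl fun p _ => ?_
  rw [← pow_add]
  have h1 : ∀ c : Q.Col, Q.ind 1 U c = if c ∈ U then 1 else 0 := fun c => rfl
  have h2 : ∀ c : Q.Col, Q.ind (-1) U c = if c ∈ U then -1 else 0 := fun c => rfl
  obtain ⟨a, r, o⟩ := p
  rcases o with _ | s
  · by_cases hr : r ∈ U
    · simp [ext, h1, h2, hr]
    · simp [ext, h1, h2, hr]
  · by_cases hr : r ∈ U <;> by_cases hs : s ∈ U <;> simp [ext, h1, h2, hr, hs]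

theorem cut_eq (U : Finset Q.Col) : Q.rc m (Q.ind 1 U) * Q.rc m (Q.ind (-1) U) =
    (core Q m).cut U := by
  have h : rcM Q m (Q.ind 1 U) * rcM Q m (Q.ind (-1) U) = (core Q m).cut U := by
    rw [rcM_eq, rcM_eq, rho_mul]
  exact h

/-- the discriminant in terms of `MvPolynomial` -/
noncomputable def discM : MvPolynomial Q.Col L :=
  ∏ c : Q.Col, ∏ d ∈ Finset.univ.filter (fun d : Q.Col => d.1 = c.1 ∧ d ≠ c), (X c - X d)

theorem disc_rfl : Q.disc L = discM Q := rfl

theorem discM_eq : (discM Q : MvPolynomial Q.Col L) = (core Q m).D := by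
  unfold QD.D QD.Prs discM
  rw [Finset.filter_filter, Finset.prod_filter, Fintype.prod_prod_type]
  refine Finset.prod_congr rfl fun c _ => ?_
  rw [Finset.prod_filter]
  refine Finset.prod_congr rfl fun d _ => ?_
  by_cases h : d.1 = c.1 ∧ d ≠ c
  · rw [if_pos h, if_pos ⟨h.1.symm, fun e => h.2 e.symm⟩]
  · rw [if_neg h, if_neg (fun e => h ⟨e.1.symm, fun e' => e.2 e'.symm⟩)]

/-- the Euler factor in terms of `MvPolynomial` -/
noncomputable def euM (S : Finset Q.Col) : MvPolynomial Q.Col L :=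
  ∏ c ∈ S, ∏ d ∈ Finset.univ.filter (fun d => d.1 = c.1 ∧ d ∉ S), (X c - X d)

theorem eu_rfl (S : Finset Q.Col) : (Q.eu S : Q.SS L) = euM Q S := rfl

theorem den_eq (lam : Q.Col → ℤ) : (core Q m).den lam
    = ∏ c : Q.Col, ∏ d : Q.Col, (if d.1 = c.1 then
      (X c - X d : MvPolynomial Q.Col L) ^ (lam c - lam d).toNat else 1) := by
  unfold QD.den QD.Prs
  rw [Finset.prod_filter, Fintype.prod_prod_type]
  refine Finset.prod_congr rfl fun c _ => Finset.prod_congr rfl fun d _ => ?_
  by_cases h : d.1 = c.1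
  · rw [if_pos h, if_pos (show (core Q m).vx c = (core Q m).vx d from h.symm)]
  · rw [if_neg h, if_neg (show ¬ (core Q m).vx c = (core Q m).vx d from fun e => h e.symm)]

theorem den_ind_one (S : Finset Q.Col) : (core Q m).den (Q.ind 1 S) = euM Q S := by
  rw [den_eq]
  unfold euM
  rw [← Finset.prod_subset (Finset.subset_univ S)]
  · refine Finset.prod_congr rfl fun c hc => ?_
    rw [Finset.prod_filter]
    refine Finset.prod_congr rfl fun d _ => ?_
    by_cases h : d.1 = c.1
    · by_cases hd : d ∈ S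
      · rw [if_pos h, if_neg (fun e => e.2 hd)]
        simp [QData.ind, hc, hd]
      · rw [if_pos h, if_pos ⟨h, hd⟩]
        simp [QData.ind, hc, hd]
    · rw [if_neg h, if_neg (fun e => h e.1)]
  · intro c _ hc
    apply Finset.prod_eq_one
    intro d _
    by_cases h : d.1 = c.1
    · rw [if_pos h]
      by_cases hd : d ∈ S <;> simp [QData.ind, hc, hd]
    · rw [if_neg h]

/-- the number of pairs counted by the Euler factor -/
def npr (S : Finset Q.Col) : ℕ :=
  ∑ c ∈ S, (Finset.univ.filter (fun d : Q.Col => d.1 = c.1 ∧ d ∉ S)).card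

theorem den_ind_neg (S : Finset Q.Col) :
    (core Q m).den (Q.ind (-1) S) = (-1) ^ npr Q S * euM Q S := by
  rw [den_eq, Finset.prod_comm]
  unfold euM npr
  rw [← Finset.prod_pow_eq_pow_sum, ← Finset.prod_mul_distrib,
    ← Finset.prod_subset (Finset.subset_univ S)]
  · refine Finset.prod_congr rfl fun c hc => ?_
    rw [← Finset.prod_const, ← Finset.prod_mul_distrib, Finset.prod_filter]
    refine Finset.prod_congr rfl fun d _ => ?_
    by_cases h : d.1 = c.1
    · by_cases hd : d ∈ S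
      · rw [if_pos h.symm, if_neg (fun e => e.2 hd)]
        simp [QData.ind, hc, hd]
      · rw [if_pos h.symm, if_pos ⟨h, hd⟩]
        simp [QData.ind, hc, hd]
    · rw [if_neg (fun e => h e.symm), if_neg (fun e => h e.1)]
  · intro c _ hc
    apply Finset.prod_eq_one
    intro d _
    by_cases h : c.1 = d.1
    · rw [if_pos h]
      by_cases hd : d ∈ S <;> simp [QData.ind, hc, hd]
    · rw [if_neg h]

end Vale.Agent.P291.Reg
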